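import Vale.Agent.P181.H59.Spec

/-! [S5-PICK]: lower bound for the probability that no picked letter is in `T`. -/

set_option autoImplicit false

namespace Vale.Agent.P181.H896

open Finset Vale.Agent.P181.H59

variable {b g n : ℕ}

/-- the value of the bit for the kind of the star -/
def sg {n : ℕ} : Fin n ⊕ Fin n → Bool → Bool
  | Sum.inl _, β => β
  | Sum.inr _, β => !β

theorem sg_sg (i : Fin n ⊕ Fin n) (β : Bool) : sg i (sg i β) = β := by
  cases i <;> simp [sg]

theorem av_eq (S : Sys b g n) (u : Fin g) (β : Bool) (i : Fin n ⊕ Fin n) :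
    av S u β i = (S.st i).filter fun p => S.col p u = sg i β := by
  cases i with
  | inl y => rfl
  | inr z =>
    ext p
    simp only [av, sg, mem_filter]
    cases h : S.col p u <;> cases β <;> simp [h]

theorem mem_av (S : Sys b g n) (u : Fin g) (β : Bool) (i : Fin n ⊕ Fin n) (p : Fin b) :
    p ∈ av S u β i ↔ p ∈ S.st i ∧ S.col p u = sg i β := by
  rw [av_eq, mem_filter]

/-- half of the colours have a given bit -/
theorem two_card_bit (u : Fin g) (v : Bool) :
    2 * (univ.filter fun κ : Fin g → Bool => κ u = v).card = 2 ^ g := by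
  have h1 : (univ.filter fun κ : Fin g → Bool => κ u = v).card =
      (univ.filter fun κ : Fin g → Bool => κ u ≠ v).card := by
    refine Finset.card_bij' (fun κ _ => Function.update κ u (!κ u))
      (fun κ _ => Function.update κ u (!κ u)) ?_ ?_ ?_ ?_
    · intro κ hκ
      simp only [mem_filter, mem_univ, true_and] at hκ ⊢
      rw [Function.update_self, hκ]
      cases v <;> simp
    · intro κ hκ
      simp only [mem_filter, mem_univ, true_and] at hκ ⊢
      rw [Function.update_self]
      revert hκ
      cases κ u <;> cases v <;> simp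
    · intro κ _
      simp
    · intro κ _
      simp
  have h2 := Finset.card_filter_add_card_filter_not (s := (univ : Finset (Fin g → Bool)))
    (fun κ : Fin g → Bool => κ u = v)
  have h3 : (univ : Finset (Fin g → Bool)).card = 2 ^ g := by
    simp
  rw [h3] at h2
  have h4 : (univ.filter fun κ : Fin g → Bool => ¬ κ u = v).card =
    (univ.filter fun κ : Fin g → Bool => κ u ≠ v).card := rfl
  omega

theorem le_card_filter (S : Sys b g n) (i : Fin n ⊕ Fin n) (P : (Fin g → Bool) → Prop)
    [DecidablePred P] :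
    (univ.filter P).card ≤ ((S.st i).filter fun p => P (S.col p)).card := by
  have : (univ.filter P) ⊆ ((S.st i).filter fun p => P (S.col p)).image S.col := by
    intro κ hκ
    simp only [mem_filter, mem_univ, true_and] at hκ
    obtain ⟨p, hp, hpk⟩ := S.colour i κ
    rw [mem_image]
    exact ⟨p, by rw [mem_filter]; exact ⟨hp, by rw [hpk]; exact hκ⟩, hpk⟩
  exact (card_le_card this).trans card_image_le

theorem le_av (S : Sys b g n) (u : Fin g) (β : Bool) (i : Fin n ⊕ Fin n) :
    2 ^ g ≤ 2 * (av S u β i).card := by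
  rw [av_eq, ← two_card_bit u (sg i β)]
  have := le_card_filter S i (fun κ => κ u = sg i β)
  omega

theorem av_le (S : Sys b g n) (u : Fin g) (β : Bool) (i : Fin n ⊕ Fin n) :
    2 * (av S u β i).card ≤ 2 ^ g + 4 := by
  have h1 := le_card_filter S i (fun κ => κ u = !(sg i β))
  have h2 := two_card_bit u (!(sg i β))
  have h3 := Finset.card_filter_add_card_filter_not (s := S.st i)
    (fun p => S.col p u = sg i β)
  have h4 : ((S.st i).filter fun p => ¬ S.col p u = sg i β) =
      ((S.st i).filter fun p => S.col p u = !(sg i β)) := by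
    ext p
    simp only [mem_filter]
    cases S.col p u <;> cases sg i β <;> simp
  rw [h4] at h3
  rw [av_eq]
  have h5 := S.size i
  omega

theorem card_col_le (S : Sys b g n) (i : Fin n ⊕ Fin n) (κ : Fin g → Bool) :
    ((S.st i).filter fun p => S.col p = κ).card ≤ 3 := by
  have h1 := le_card_filter S i (fun κ' => ¬ κ' = κ)
  have h3 := Finset.card_filter_add_card_filter_not (s := S.st i) (fun p => S.col p = κ)
  have h2 : (univ.filter fun κ' : Fin g → Bool => ¬ κ' = κ).card = 2 ^ g - 1 := by
    have h4 := Finset.card_filter_add_card_filter_not (s := (univ : Finset (Fin g → Bool)))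
      (fun κ' : Fin g → Bool => κ' = κ)
    have h5 : (univ : Finset (Fin g → Bool)).card = 2 ^ g := by simp
    have h6 : (univ.filter fun κ' : Fin g → Bool => κ' = κ).card = 1 := by
      rw [Finset.card_eq_one]
      exact ⟨κ, by ext x; simp⟩
    omega
  have h5 := S.size i
  have h7 : 1 ≤ 2 ^ g := Nat.one_le_two_pow
  omega

theorem inter_le (S : Sys b g n) {i j : Fin n ⊕ Fin n} (hij : i ≠ j) :
    (S.st i ∩ S.st j).card ≤ 1 := by
  cases i with
  | inl y =>
    cases j with
    | inl y' =>
      have := S.disjL y y' (fun h => hij (by rw [h]))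
      rw [disjoint_iff_inter_eq_empty] at this
      rw [this]; simp
    | inr z => exact S.inter y z
  | inr z =>
    cases j with
    | inl y => rw [inter_comm]; exact S.inter y z
    | inr z' =>
      have := S.disjM z z' (fun h => hij (by rw [h]))
      rw [disjoint_iff_inter_eq_empty] at this
      rw [this]; simp

theorem av_disj (S : Sys b g n) (u : Fin g) (β : Bool) {i j : Fin n ⊕ Fin n} (hij : i ≠ j) :
    Disjoint (av S u β i) (av S u β j) := by
  rw [Finset.disjoint_left]
  intro p hp hq
  rw [mem_av] at hp hq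
  cases i with
  | inl y =>
    cases j with
    | inl y' =>
      exact (Finset.disjoint_left.1 (S.disjL y y' (fun h => hij (by rw [h])))) hp.1 hq.1
    | inr z =>
      have := hp.2.symm.trans hq.2
      simp [sg] at this
  | inr z =>
    cases j with
    | inl y =>
      have := hp.2.symm.trans hq.2
      simp [sg] at this
    | inr z' =>
      exact (Finset.disjoint_left.1 (S.disjM z z' (fun h => hij (by rw [h])))) hp.1 hq.1

theorem sum_av_inter_le (S : Sys b g n) (u : Fin g) (β : Bool) (T : Finset (Fin b))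
    (s : Finset (Fin n ⊕ Fin n)) : ∑ i ∈ s, (av S u β i ∩ T).card ≤ T.card := by
  rw [← Finset.card_biUnion]
  · apply card_le_card
    intro p hp
    rw [mem_biUnion] at hp
    obtain ⟨i, _, hi⟩ := hp
    exact (mem_inter.1 hi).2
  · intro i _ j _ hij
    exact (av_disj S u β hij).mono inter_subset_left inter_subset_left

/-- the fraction of a star which avoids `T` -/
noncomputable def fr (S : Sys b g n) (T : Finset (Fin b)) (u : Fin g) (β : Bool)
    (i : Fin n ⊕ Fin n) : ℝ := ((av S u β i \ T).card : ℝ) / (av S u β i).card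

theorem fr_nonneg (S : Sys b g n) (T : Finset (Fin b)) (u : Fin g) (β : Bool)
    (i : Fin n ⊕ Fin n) : 0 ≤ fr S T u β i := by
  unfold fr; positivity

theorem av_pos (S : Sys b g n) (u : Fin g) (β : Bool) (i : Fin n ⊕ Fin n) :
    (0 : ℝ) < ((av S u β i).card : ℝ) := by
  have h1 := le_av S u β i
  have h2 : 1 ≤ 2 ^ g := Nat.one_le_two_pow
  have h3 : 0 < (av S u β i).card := by omega
  exact_mod_cast h3

theorem fr_eq (S : Sys b g n) (T : Finset (Fin b)) (u : Fin g) (β : Bool)
    (i : Fin n ⊕ Fin n) :
    fr S T u β i = 1 - ((av S u β i ∩ T).card : ℝ) / (av S u β i).card := by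
  unfold fr
  have h := av_pos S u β i
  have h1 := Finset.card_sdiff_add_card_inter (av S u β i) T
  have h2 : ((av S u β i \ T).card : ℝ) + ((av S u β i ∩ T).card : ℝ) =
      ((av S u β i).card : ℝ) := by exact_mod_cast h1
  field_simp
  linarith

theorem exp_le {x : ℝ} (h0 : 0 ≤ x) (h1 : x ≤ 4 / 5) : Real.exp (-(5 * x)) ≤ 1 - x := by
  have h2 : 1 + 5 * x ≤ Real.exp (5 * x) := by
    have := Real.add_one_le_exp (5 * x)
    linarith
  rw [Real.exp_neg]
  have h3 : 0 < 1 + 5 * x := by linarith
  have h4 : (Real.exp (5 * x))⁻¹ ≤ (1 + 5 * x)⁻¹ := inv_anti₀ h3 h2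
  have h5 : (1 + 5 * x)⁻¹ ≤ 1 - x := by
    rw [inv_le_iff_one_le_mul₀ h3]
    nlinarith
  linarith

/-- a star is light -/
def Light (S : Sys b g n) (T : Finset (Fin b)) (i : Fin n ⊕ Fin n) : Prop :=
  5 * (S.st i ∩ T).card ≤ 2 * 2 ^ g

instance (S : Sys b g n) (T : Finset (Fin b)) : DecidablePred (Light S T) := fun i => by
  unfold Light; infer_instance

theorem light_prod (S : Sys b g n) (T : Finset (Fin b)) (hg : 6 ≤ g)
    (hT : T.card ≤ 2 ^ g + 2) (u : Fin g) (β : Bool) :
    Real.exp (-11) ≤ ∏ i ∈ univ.filter (Light S T), fr S T u β i := by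
  have hh : (64 : ℝ) ≤ 2 ^ g := by
    calc (64 : ℝ) = 2 ^ 6 := by norm_num
      _ ≤ 2 ^ g := pow_le_pow_right₀ (by norm_num) hg
  have key : ∀ i ∈ univ.filter (Light S T),
      Real.exp (-(10 * ((av S u β i ∩ T).card : ℝ) / 2 ^ g)) ≤ fr S T u β i := by
    intro i hi
    rw [mem_filter] at hi
    have hl : 5 * (S.st i ∩ T).card ≤ 2 * 2 ^ g := hi.2
    rw [fr_eq]
    have hp := av_pos S u β i
    have h1 : (2 : ℝ) ^ g ≤ 2 * ((av S u β i).card : ℝ) := by exact_mod_cast le_av S u β i
    have h2 : (av S u β i ∩ T).card ≤ (S.st i ∩ T).card := by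
      apply card_le_card
      intro p hp
      rw [mem_inter, mem_av] at hp
      rw [mem_inter]
      exact ⟨hp.1.1, hp.2⟩
    have h3 : 5 * ((av S u β i ∩ T).card : ℝ) ≤ 2 * 2 ^ g := by
      exact_mod_cast (Nat.mul_le_mul_left 5 h2).trans hl
    have hx0 : 0 ≤ ((av S u β i ∩ T).card : ℝ) / (av S u β i).card := by positivity
    have hx1 : ((av S u β i ∩ T).card : ℝ) / (av S u β i).card ≤ 4 / 5 := by
      rw [div_le_div_iff₀ hp (by norm_num)]
      linarith
    refine le_trans ?_ (exp_le hx0 hx1)
    apply Real.exp_le_exp.2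
    have h4 : ((av S u β i ∩ T).card : ℝ) / (av S u β i).card ≤
        2 * ((av S u β i ∩ T).card : ℝ) / 2 ^ g := by
      rw [div_le_div_iff₀ hp (by positivity)]
      have : (0 : ℝ) ≤ ((av S u β i ∩ T).card : ℝ) := by positivity
      nlinarith
    have h5 : 10 * ((av S u β i ∩ T).card : ℝ) / 2 ^ g =
        5 * (2 * ((av S u β i ∩ T).card : ℝ) / 2 ^ g) := by ring
    linarith
  calc Real.exp (-11)
      ≤ Real.exp (∑ i ∈ univ.filter (Light S T),
          (-(10 * ((av S u β i ∩ T).card : ℝ) / 2 ^ g))) := by
        apply Real.exp_le_exp.2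
        rw [Finset.sum_neg_distrib]
        have h1 : ∑ i ∈ univ.filter (Light S T), (10 * ((av S u β i ∩ T).card : ℝ) / 2 ^ g) =
            10 / 2 ^ g * ((∑ i ∈ univ.filter (Light S T), (av S u β i ∩ T).card : ℕ) : ℝ) := by
          rw [Nat.cast_sum, Finset.mul_sum]
          apply Finset.sum_congr rfl
          intro i _
          ring
        rw [h1]
        have h2 : ((∑ i ∈ univ.filter (Light S T), (av S u β i ∩ T).card : ℕ) : ℝ) ≤
            2 ^ g + 2 := by
          exact_mod_cast (sum_av_inter_le S u β T _).trans hT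
        have h3 : 10 / (2 : ℝ) ^ g * ((∑ i ∈ univ.filter (Light S T),
            (av S u β i ∩ T).card : ℕ) : ℝ) ≤ 10 / 2 ^ g * (2 ^ g + 2) :=
          mul_le_mul_of_nonneg_left h2 (by positivity)
        have h4 : 10 / (2 : ℝ) ^ g * (2 ^ g + 2) ≤ 11 := by
          rw [div_mul_eq_mul_div, div_le_iff₀ (by positivity)]
          linarith
        linarith
    _ = ∏ i ∈ univ.filter (Light S T),
          Real.exp (-(10 * ((av S u β i ∩ T).card : ℝ) / 2 ^ g)) := by
        rw [Real.exp_sum]
    _ ≤ _ := Finset.prod_le_prod (fun i _ => (Real.exp_pos _).le) key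

/-- at most two heavy stars -/
theorem heavy_le (S : Sys b g n) (T : Finset (Fin b)) (hg : 6 ≤ g)
    (hT : T.card ≤ 2 ^ g + 2) : (univ.filter fun i => ¬ Light S T i).card ≤ 2 := by
  by_contra hc
  push Not at hc
  rw [Finset.two_lt_card] at hc
  obtain ⟨i, hi, j, hj, k, hk, hij, hik, hjk⟩ := hc
  simp only [mem_filter, mem_univ, true_and, Light, not_le] at hi hj hk
  have hh : 64 ≤ 2 ^ g := by
    calc 64 = 2 ^ 6 := by norm_num
      _ ≤ 2 ^ g := Nat.pow_le_pow_right (by norm_num) hg
  have hI : ∀ x y : Fin n ⊕ Fin n, x ≠ y → ((S.st x ∩ T) ∩ (S.st y ∩ T)).card ≤ 1 := by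
    intro x y hxy
    refine le_trans (card_le_card ?_) (inter_le S hxy)
    intro p hp
    simp only [mem_inter] at hp ⊢
    exact ⟨hp.1.1, hp.2.1⟩
  have h1 := Finset.card_union_add_card_inter (S.st i ∩ T) (S.st j ∩ T)
  have h2 := Finset.card_union_add_card_inter ((S.st i ∩ T) ∪ (S.st j ∩ T)) (S.st k ∩ T)
  have h3 : (((S.st i ∩ T) ∪ (S.st j ∩ T)) ∩ (S.st k ∩ T)).card ≤ 2 := by
    rw [Finset.union_inter_distrib_right]
    refine (card_union_le _ _).trans ?_
    have := hI i k hik
    have := hI j k hjk
    omega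
  have h4 := hI i j hij
  have h5 : (((S.st i ∩ T) ∪ (S.st j ∩ T)) ∪ (S.st k ∩ T)).card ≤ T.card := by
    apply card_le_card
    intro p hp
    simp only [mem_union, mem_inter] at hp
    tauto
  omega

theorem sum_bool_card (S : Sys b g n) (T : Finset (Fin b)) (u : Fin g) (i : Fin n ⊕ Fin n) :
    ∑ β : Bool, (av S u β i \ T).card = (S.st i \ T).card := by
  rw [Fintype.sum_bool, ← Finset.card_union_of_disjoint]
  · congr 1
    ext p
    simp only [mem_union, mem_sdiff, mem_av]
    cases h : S.col p u <;> cases i <;> simp [sg]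
  · rw [Finset.disjoint_left]
    intro p hp hq
    rw [mem_sdiff, mem_av] at hp hq
    have := hp.1.2.symm.trans hq.1.2
    cases i <;> simp [sg] at this

/-- two stars: many pairs of letters can be picked together -/
theorem two_stars (S : Sys b g n) (T : Finset (Fin b)) (i j : Fin n ⊕ Fin n) :
    (S.st i \ T).card * ((S.st j \ T).card - 3) ≤
      ∑ u : Fin g, ∑ β : Bool, (av S u β i \ T).card * (av S u β j \ T).card := by
  have h1 : ∀ u : Fin g, ∀ β : Bool, (av S u β i \ T).card * (av S u β j \ T).card =
      ∑ p ∈ S.st i \ T, ∑ q ∈ S.st j \ T,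
        (if S.col p u = sg i β ∧ S.col q u = sg j β then 1 else 0) := by
    intro u β
    rw [← Finset.card_product, Finset.card_eq_sum_ones, ← Finset.sum_product',
      ← Finset.sum_filter]
    apply Finset.sum_congr _ (fun _ _ => rfl)
    ext ⟨p, q⟩
    simp only [mem_product, mem_filter, mem_sdiff, mem_av]
    tauto
  have h2 : ∑ u : Fin g, ∑ β : Bool, (av S u β i \ T).card * (av S u β j \ T).card =
      ∑ p ∈ S.st i \ T, ∑ q ∈ S.st j \ T, ∑ u : Fin g, ∑ β : Bool,
        (if S.col p u = sg i β ∧ S.col q u = sg j β then 1 else 0) := by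
    simp_rw [h1]
    calc ∑ u : Fin g, ∑ β : Bool, ∑ p ∈ S.st i \ T, ∑ q ∈ S.st j \ T,
          (if S.col p u = sg i β ∧ S.col q u = sg j β then 1 else 0)
        = ∑ u : Fin g, ∑ p ∈ S.st i \ T, ∑ q ∈ S.st j \ T, ∑ β : Bool,
          (if S.col p u = sg i β ∧ S.col q u = sg j β then 1 else 0) := by
          apply Finset.sum_congr rfl
          intro u _
          rw [Finset.sum_comm]
          apply Finset.sum_congr rfl
          intro p _
          rw [Finset.sum_comm]
      _ = _ := by
          rw [Finset.sum_comm]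
          apply Finset.sum_congr rfl
          intro p _
          rw [Finset.sum_comm]
  rw [h2, ← smul_eq_mul, ← Finset.sum_const]
  apply Finset.sum_le_sum
  intro p _
  -- the bad colour
  set κ : Fin g → Bool := fun u => !(sg j (sg i (S.col p u))) with hκ
  have h3 : ∀ q ∈ (S.st j \ T).filter (fun q => ¬ S.col q = κ),
      1 ≤ ∑ u : Fin g, ∑ β : Bool,
        (if S.col p u = sg i β ∧ S.col q u = sg j β then 1 else 0) := by
    intro q hq
    rw [mem_filter] at hq
    obtain ⟨u, hu⟩ := Function.ne_iff.1 hq.2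
    have hu' : S.col q u = sg j (sg i (S.col p u)) := by
      have : S.col q u ≠ !(sg j (sg i (S.col p u))) := hu
      revert this
      cases S.col q u <;> cases sg j (sg i (S.col p u)) <;> simp
    calc 1 = (if S.col p u = sg i (sg i (S.col p u)) ∧
            S.col q u = sg j (sg i (S.col p u)) then 1 else 0) := by
          rw [if_pos ⟨(sg_sg _ _).symm, hu'⟩]
      _ ≤ ∑ β : Bool, (if S.col p u = sg i β ∧ S.col q u = sg j β then 1 else 0) :=
          Finset.single_le_sum (f := fun β => if S.col p u = sg i β ∧ S.col q u = sg j β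
            then 1 else 0) (fun _ _ => Nat.zero_le _) (mem_univ _)
      _ ≤ _ := Finset.single_le_sum (f := fun u => ∑ β : Bool,
            (if S.col p u = sg i β ∧ S.col q u = sg j β then 1 else 0))
            (fun _ _ => Nat.zero_le _) (mem_univ _)
  calc (S.st j \ T).card - 3 ≤ ((S.st j \ T).filter (fun q => ¬ S.col q = κ)).card := by
        have h4 := Finset.card_filter_add_card_filter_not (s := S.st j \ T)
          (fun q => S.col q = κ)
        have h5 : ((S.st j \ T).filter (fun q => S.col q = κ)).card ≤ 3 :=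
          (card_le_card (filter_subset_filter _ sdiff_subset)).trans (card_col_le S j κ)
        omega
    _ = ∑ q ∈ (S.st j \ T).filter (fun q => ¬ S.col q = κ), 1 := by simp
    _ ≤ ∑ q ∈ (S.st j \ T).filter (fun q => ¬ S.col q = κ), ∑ u : Fin g, ∑ β : Bool,
          (if S.col p u = sg i β ∧ S.col q u = sg j β then 1 else 0) :=
        Finset.sum_le_sum h3
    _ ≤ _ := Finset.sum_le_sum_of_subset (filter_subset _ _)

theorem fr_ge (S : Sys b g n) (T : Finset (Fin b)) (u : Fin g) (β : Bool)
    (i : Fin n ⊕ Fin n) :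
    ((av S u β i \ T).card : ℝ) / ((2 ^ g + 4) / 2) ≤ fr S T u β i := by
  unfold fr
  apply div_le_div_of_nonneg_left (by positivity) (av_pos S u β i)
  have h : (2 : ℝ) * ((av S u β i).card : ℝ) ≤ 2 ^ g + 4 := by exact_mod_cast av_le S u β i
  linarith

/-- the heavy part of the product -/
theorem heavy_sum (S : Sys b g n) (T : Finset (Fin b)) (D : ℕ) (hg : 6 ≤ g) (hn : 0 < n)
    (hT : T.card ≤ 2 ^ g + 2) (hD : ∀ i, D ≤ (S.st i \ T).card) :
    (D : ℝ) / 2 ^ g ≤
      ∑ u : Fin g, ∑ β : Bool, ∏ i ∈ univ.filter (fun i => ¬ Light S T i), fr S T u β i := by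
  have hh : (64 : ℝ) ≤ 2 ^ g := by
    calc (64 : ℝ) = 2 ^ 6 := by norm_num
      _ ≤ 2 ^ g := pow_le_pow_right₀ (by norm_num) hg
  have hhn : 64 ≤ 2 ^ g := by exact_mod_cast hh
  have hg' : (6 : ℝ) ≤ g := by exact_mod_cast hg
  have hc := heavy_le S T hg hT
  rcases Nat.lt_or_ge (univ.filter fun i => ¬ Light S T i).card 1 with h0 | h1
  · -- no heavy star
    have h0' : (univ.filter fun i => ¬ Light S T i) = ∅ := by
      rw [← Finset.card_eq_zero]; omega
    rw [h0']
    simp only [prod_empty, sum_const, card_univ, Fintype.card_bool, Fintype.card_fin,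
      nsmul_eq_mul, mul_one]
    have h2 : D ≤ 2 ^ g + 2 := (hD (Sum.inl ⟨0, hn⟩)).trans
      ((card_le_card sdiff_subset).trans (S.size _))
    have h3 : (D : ℝ) ≤ 2 ^ g + 2 := by exact_mod_cast h2
    rw [div_le_iff₀ (by positivity)]
    push_cast
    nlinarith
  · rcases Nat.lt_or_ge (univ.filter fun i => ¬ Light S T i).card 2 with h2 | h2
    · -- one heavy star
      have h3 : (univ.filter fun i => ¬ Light S T i).card = 1 := by omega
      obtain ⟨i, hi⟩ := Finset.card_eq_one.1 h3
      rw [hi]
      simp only [prod_singleton]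
      calc (D : ℝ) / 2 ^ g ≤ g * (D / ((2 ^ g + 4) / 2)) := by
            rw [div_le_iff₀ (by positivity)]
            have hD0 : (0 : ℝ) ≤ D := by positivity
            have h4 : (g : ℝ) * (D / ((2 ^ g + 4) / 2)) * 2 ^ g =
                D * (g * (2 * 2 ^ g / (2 ^ g + 4))) := by
              field_simp
            rw [h4]
            have h5 : (1 : ℝ) ≤ 2 * 2 ^ g / (2 ^ g + 4) := by
              rw [le_div_iff₀ (by positivity)]
              linarith
            have h6 : (1 : ℝ) ≤ g * (2 * 2 ^ g / (2 ^ g + 4)) := by nlinarith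
            nlinarith
        _ ≤ g * ((S.st i \ T).card / ((2 ^ g + 4) / 2)) := by
            have h4 : (D : ℝ) ≤ ((S.st i \ T).card : ℝ) := by exact_mod_cast hD i
            gcongr
        _ = ∑ u : Fin g, ∑ β : Bool, ((av S u β i \ T).card : ℝ) / ((2 ^ g + 4) / 2) := by
            have h4 : ∀ u : Fin g, ∑ β : Bool,
                ((av S u β i \ T).card : ℝ) / ((2 ^ g + 4) / 2) =
                ((S.st i \ T).card : ℝ) / ((2 ^ g + 4) / 2) := by
              intro u
              rw [← Finset.sum_div, ← sum_bool_card S T u i]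
              push_cast
              rfl
            simp_rw [h4]
            rw [Finset.sum_const, card_univ, Fintype.card_fin, nsmul_eq_mul]
        _ ≤ _ := Finset.sum_le_sum fun u _ => Finset.sum_le_sum fun β _ => fr_ge S T u β i
    · -- two heavy stars
      have h3 : (univ.filter fun i => ¬ Light S T i).card = 2 := by omega
      obtain ⟨i, j, hij, hs⟩ := Finset.card_eq_two.1 h3
      rw [hs]
      simp only [prod_pair hij]
      -- wlog the second star has more letters
      have key : ∀ i j : Fin n ⊕ Fin n, i ≠ j → (S.st i \ T).card ≤ (S.st j \ T).card →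
          (D : ℝ) / 2 ^ g ≤ ∑ u : Fin g, ∑ β : Bool, fr S T u β i * fr S T u β j := by
        intro i j hij hle
        have h4 := two_stars S T i j
        have h5 : 2 ^ g ≤ (S.st i).card := by
          have := le_card_filter S i (fun _ => True)
          simpa using this
        have h6 : 2 ^ g ≤ (S.st j).card := by
          have := le_card_filter S j (fun _ => True)
          simpa using this
        have h7 := Finset.card_sdiff_add_card_inter (S.st i) T
        have h8 := Finset.card_sdiff_add_card_inter (S.st j) T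
        have h9 : (S.st i ∩ T).card + (S.st j ∩ T).card ≤ T.card + 1 := by
          rw [← Finset.card_union_add_card_inter]
          have a1 : ((S.st i ∩ T) ∪ (S.st j ∩ T)).card ≤ T.card := by
            apply card_le_card
            intro p hp
            simp only [mem_union, mem_inter] at hp
            tauto
          have a2 : ((S.st i ∩ T) ∩ (S.st j ∩ T)).card ≤ 1 := by
            refine le_trans (card_le_card ?_) (inter_le S hij)
            intro p hp
            simp only [mem_inter] at hp ⊢
            exact ⟨hp.1.1, hp.2.1⟩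
          omega
        have h10 : 2 ^ g ≤ 3 * ((S.st j \ T).card - 3) := by omega
        have h11 : D * 2 ^ g ≤ 3 * ∑ u : Fin g, ∑ β : Bool,
            (av S u β i \ T).card * (av S u β j \ T).card := by
          calc D * 2 ^ g ≤ (S.st i \ T).card * (3 * ((S.st j \ T).card - 3)) :=
                Nat.mul_le_mul (hD i) h10
            _ = 3 * ((S.st i \ T).card * ((S.st j \ T).card - 3)) := by ring
            _ ≤ _ := Nat.mul_le_mul_left 3 h4
        have h12 : (D : ℝ) * 2 ^ g ≤ 3 * ∑ u : Fin g, ∑ β : Bool,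
            ((av S u β i \ T).card : ℝ) * (av S u β j \ T).card := by exact_mod_cast h11
        have h13 : ∑ u : Fin g, ∑ β : Bool,
            ((av S u β i \ T).card : ℝ) / ((2 ^ g + 4) / 2) *
              (((av S u β j \ T).card : ℝ) / ((2 ^ g + 4) / 2)) ≤
            ∑ u : Fin g, ∑ β : Bool, fr S T u β i * fr S T u β j := by
          apply Finset.sum_le_sum
          intro u _
          apply Finset.sum_le_sum
          intro β _
          exact mul_le_mul (fr_ge S T u β i) (fr_ge S T u β j) (by positivity)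
            (fr_nonneg S T u β i)
        refine le_trans ?_ h13
        have h14 : ∑ u : Fin g, ∑ β : Bool,
            ((av S u β i \ T).card : ℝ) / ((2 ^ g + 4) / 2) *
              (((av S u β j \ T).card : ℝ) / ((2 ^ g + 4) / 2)) =
            4 / (2 ^ g + 4) ^ 2 * ∑ u : Fin g, ∑ β : Bool,
            ((av S u β i \ T).card : ℝ) * (av S u β j \ T).card := by
          rw [Finset.mul_sum]
          apply Finset.sum_congr rfl
          intro u _
          rw [Finset.mul_sum]
          apply Finset.sum_congr rfl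
          intro β _
          field_simp
          ring
        rw [h14]
        set X : ℝ := ∑ u : Fin g, ∑ β : Bool,
            ((av S u β i \ T).card : ℝ) * (av S u β j \ T).card with hX
        rw [div_mul_eq_mul_div, div_le_div_iff₀ (by positivity) (by positivity)]
        have hD0 : (0 : ℝ) ≤ D := by positivity
        have h15 : ((2 : ℝ) ^ g + 4) ^ 2 * 3 ≤ 4 * 2 ^ g * 2 ^ g := by nlinarith
        calc (D : ℝ) * (2 ^ g + 4) ^ 2 ≤ D * (4 * 2 ^ g * 2 ^ g / 3) := by
              apply mul_le_mul_of_nonneg_left _ hD0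
              linarith
          _ = 4 * 2 ^ g / 3 * (D * 2 ^ g) := by ring
          _ ≤ 4 * 2 ^ g / 3 * (3 * X) := by
              apply mul_le_mul_of_nonneg_left h12 (by positivity)
          _ = 4 * X * 2 ^ g := by ring
      rcases le_total (S.st i \ T).card (S.st j \ T).card with hle | hle
      · exact key i j hij hle
      · have := key j i hij.symm hle
        simp_rw [mul_comm (fr S T _ _ i)]
        exact this

/-- **[S5-PICK]** (for `0 < n`) -/
theorem pick_lower (S : Sys b g n) (T : Finset (Fin b)) (D : ℕ) (hg : 6 ≤ g) (hn : 0 < n)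
    (hT : T.card ≤ 2 ^ g + 2) (hD : ∀ i, D ≤ (S.st i \ T).card) :
    Real.exp (-25) * D / (2 * g * 2 ^ g) ≤ pick S T := by
  have hg0 : (0 : ℝ) < g := by
    have : 0 < g := by omega
    exact_mod_cast this
  have h1 := heavy_sum S T D hg hn hT hD
  have h2 : Real.exp (-11) * (D / 2 ^ g) ≤ ∑ u : Fin g, ∑ β : Bool, ∏ i, fr S T u β i := by
    calc Real.exp (-11) * (D / 2 ^ g) ≤ Real.exp (-11) * ∑ u : Fin g, ∑ β : Bool,
          ∏ i ∈ univ.filter (fun i => ¬ Light S T i), fr S T u β i :=
          mul_le_mul_of_nonneg_left h1 (Real.exp_pos _).le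
      _ = ∑ u : Fin g, ∑ β : Bool, Real.exp (-11) *
          ∏ i ∈ univ.filter (fun i => ¬ Light S T i), fr S T u β i := by
          rw [Finset.mul_sum]
          apply Finset.sum_congr rfl
          intro u _
          rw [Finset.mul_sum]
      _ ≤ _ := by
          apply Finset.sum_le_sum
          intro u _
          apply Finset.sum_le_sum
          intro β _
          rw [← Finset.prod_filter_mul_prod_filter_not univ (Light S T)]
          apply mul_le_mul_of_nonneg_right (light_prod S T hg hT u β)
          exact Finset.prod_nonneg fun i _ => fr_nonneg S T u β i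
  have h3 : pick S T = (∑ u : Fin g, ∑ β : Bool, ∏ i, fr S T u β i) / (2 * g) := rfl
  rw [h3, div_le_div_iff₀ (by positivity) (by positivity)]
  have h4 : Real.exp (-25) ≤ Real.exp (-11) := Real.exp_le_exp.2 (by norm_num)
  have h5 : Real.exp (-25) * (D / 2 ^ g) ≤ Real.exp (-11) * (D / 2 ^ g) :=
    mul_le_mul_of_nonneg_right h4 (by positivity)
  have h6 := h5.trans h2
  have h7 : Real.exp (-25) * D = Real.exp (-25) * (D / 2 ^ g) * 2 ^ g := by
    field_simp
  rw [h7]
  have h8 : Real.exp (-25) * (D / 2 ^ g) * 2 ^ g * (2 * g) ≤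
      (∑ u : Fin g, ∑ β : Bool, ∏ i, fr S T u β i) * (2 ^ g * (2 * g)) := by
    calc Real.exp (-25) * (D / 2 ^ g) * 2 ^ g * (2 * g)
        = Real.exp (-25) * (D / 2 ^ g) * (2 ^ g * (2 * g)) := by ring
      _ ≤ _ := mul_le_mul_of_nonneg_right h6 (by positivity)
  linarith

theorem pick_stmt : PickStmt := fun _ _ _ D S T hg hn hT _ hD => pick_lower S T D hg hn hT hD

end Vale.Agent.P181.H896
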